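import Vale.Agent.P248.Main

/-!
# Mahler's symmetric inequality with symmetries in all coordinates but two
-/

open MeasureTheory

namespace Vale.Agent.Results.P248.FreePlaneSymmetry

theorem result : ∀ (m : ℕ) (K : Set (Fin (m + 2) → ℝ)), IsCompact K → Convex ℝ K →
    (interior K).Nonempty →
    (∀ ε : Fin (m + 2) → ℝ, (∀ i, ε i = 1 ∨ ε i = -1) → ε 0 = ε 1 →
      ∀ x ∈ K, (fun i => ε i * x i) ∈ K) →
    (∀ σ : Equiv.Perm (Fin (m + 2)), σ 0 = 0 → σ 1 = 1 → ∀ x ∈ K, (fun i => x (σ i)) ∈ K) →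
    (4 : ℝ) ^ (m + 2) / (Nat.factorial (m + 2) : ℝ) ≤
      volume.real K * volume.real {y : Fin (m + 2) → ℝ | ∀ x ∈ K, ∑ i, x i * y i ≤ 1} := by
  intro m K hc hv hne hs hp
  have hneg : ∀ x ∈ K, -x ∈ K := fun x hx => by
    have := hs (fun _ => -1) (fun _ => Or.inr rfl) rfl x hx
    simpa [Pi.neg_def] using this
  have h0 : (0 : Fin (m + 2) → ℝ) ∈ interior K := by
    obtain ⟨x, hx⟩ := hne
    have := hv.combo_interior_self_mem_interior hx (hneg x (interior_subset hx))
      (a := 1 / 2) (b := 1 / 2) (by norm_num) (by norm_num) (by norm_num)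
    simpa using this
  exact Vale.Agent.P248.main m K ⟨hc, hv, h0⟩
    (fun s e x hx => hs (fun i => Vale.Agent.P248.sg (s i))
      (fun i => Vale.Agent.P248.sg_eq_or (s i)) (by simp [e]) x hx) hp

end Vale.Agent.Results.P248.FreePlaneSymmetry
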