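import Vale.Agent.P248.Shift

/-!
# The general Mahler inequality for bodies with many hyperplanes of symmetry
-/

open MeasureTheory
open scoped Matrix

namespace Vale.Agent.Results.P248.ManyReflections

theorem result :
    (∀ (n : ℕ) (K : Set (Fin n → ℝ)) (J : Finset (Fin n)), IsCompact K → Convex ℝ K →
      (∀ x ∈ K, ∀ i ∈ J, Function.update x i (-x i) ∈ K) → ∀ z ∈ interior K,
      (4 : ℝ) ^ n * (Nat.factorial J.card : ℝ) / (Nat.factorial n : ℝ) ^ 2 ≤
        volume.real K * volume.real {y : Fin n → ℝ | ∀ x ∈ K, (x - z) ⬝ᵥ y ≤ 1}) ∧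
    (∀ k : ℕ, ∃ N : ℕ, (k = 1 → N = 9) ∧ ∀ n ≥ N, ∀ (K : Set (Fin n → ℝ)) (J : Finset (Fin n)),
      IsCompact K → Convex ℝ K →
      (∀ x ∈ K, ∀ i ∈ J, Function.update x i (-x i) ∈ K) → n ≤ J.card + k → ∀ z ∈ interior K,
      ((n : ℝ) + 1) ^ (n + 1) / (Nat.factorial n : ℝ) ^ 2 <
        volume.real K * volume.real {y : Fin n → ℝ | ∀ x ∈ K, (x - z) ⬝ᵥ y ≤ 1}) := by
  have key : ∀ (n : ℕ) (K : Set (Fin n → ℝ)) (J : Finset (Fin n)), IsCompact K → Convex ℝ K →
      (∀ x ∈ K, ∀ i ∈ J, Function.update x i (-x i) ∈ K) → ∀ z ∈ interior K,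
      Vale.Agent.P248.bd n J.card ≤
        volume.real K * volume.real {y : Fin n → ℝ | ∀ x ∈ K, (x - z) ⬝ᵥ y ≤ 1} := by
    intro n K J hc hv hs z hz
    have h := Vale.Agent.P248.general_bound hc hv hs hz
    have e : Vale.Agent.P248.pol (Vale.Agent.P248.seen z K) =
        {y : Fin n → ℝ | ∀ x ∈ K, (x - z) ⬝ᵥ y ≤ 1} := by
      ext y
      refine ⟨fun hy x hx => hy (x - z) ?_, fun hy x hx => ?_⟩
      · show x - z + z ∈ K
        rwa [sub_add_cancel]
      · have := hy (x + z) hx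
        rwa [add_sub_cancel_right] at this
    rwa [e] at h
  refine ⟨key, fun k => ?_⟩
  by_cases hk : k = 1
  · subst hk
    exact ⟨9, fun _ => rfl, fun n hn K J hc hv hs hj z hz =>
      (Vale.Agent.P248.bd_beats_one hn hj).trans_le (key n K J hc hv hs z hz)⟩
  · obtain ⟨N, hN⟩ := Vale.Agent.P248.bd_beats k
    exact ⟨N, fun e => absurd e hk, fun n hn K J hc hv hs hj z hz =>
      (hN n hn _ hj).trans_le (key n K J hc hv hs z hz)⟩

end Vale.Agent.Results.P248.ManyReflections
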